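import Vale.Agent.P090.Main

open Vale.Agent.P090

theorem Vale.Agent.Results.P090.A_NoBAP.result :
    ∃ (M : Type) (_ : MetricSpace M) (o : M),
      Countable M ∧ (∀ x y : M, x ≠ y → 1 ≤ dist x y) ∧ ¬ HasBAP (FreeSpace M o) :=
  ⟨Pt, inferInstance, base, inferInstance, fun _ _ h => one_le_dist h, not_hasBAP⟩
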